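import Vale.Agent.P113.Main

set_option synthInstance.maxSize 4000

open Set Vale.Agent.P113
open scoped ContDiff

theorem Vale.Agent.Results.P113.HaltingCompiler.result :
    ∃ (a : Fin 3 → ℚ) (lo hi : Fin 3 → ℚ) (T₀ : ℝ)
      (compile : MachineCode × List ℕ → ForceCode),
    (∀ i, lo i < hi i) ∧
    Computable compile ∧
    (∀ p i, ∀ c ∈ forceList (compile p) i, TermValid c) ∧
    (∀ p i, ∀ c ∈ forceList (compile p) i, isPeriodicTerm c = false →
      ∀ t : ℝ, T₀ ≤ t → termTheta c t = 0) ∧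
    (∀ (M : Machine) (w w' : List M.Sym) i,
      periodicPart (compile (M.code, M.wordCode w)) i =
        periodicPart (compile (M.code, M.wordCode w')) i) ∧
    ∀ ν : ℝ, 0 < ν → ∀ (M : Machine) (w : List M.Sym),
      ∃ (u : ℝ → (Fin 3 → ℝ) → Fin 3 → ℝ) (p : ℝ → (Fin 3 → ℝ) → ℝ),
        ContDiff ℝ ∞ (fun z : ℝ × (Fin 3 → ℝ) => u z.1 z.2) ∧
        ContDiff ℝ ∞ (fun z : ℝ × (Fin 3 → ℝ) => p z.1 z.2) ∧
        (∀ T, IsClassical ν (forceVal ν (compile (M.code, M.wordCode w))) T u p) ∧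
        (∀ T, 0 < T → ∀ u' p',
          IsClassical ν (forceVal ν (compile (M.code, M.wordCode w))) T u' p' →
            ∀ t ∈ Icc 0 T, ∀ x, u' t x = u t x ∧ p' t x = p t x) ∧
        ∃ X : ℝ → Fin 3 → ℝ, IsTrajectory u (fun i => (a i : ℝ)) X ∧
          (∀ X', IsTrajectory u (fun i => (a i : ℝ)) X' → ∀ t, 0 ≤ t → X' t = X t) ∧
          (HitsBox X lo hi ↔ M.Halts w) :=
  halting_detection
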